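import Vale.Agent.P345.Rec

/-- Matiyasevich's single-fold conjecture: every recursively enumerable set `S ⊆ ℕ ^ n` has a
single-fold Diophantine representation. -/
theorem Vale.Agent.Results.P345.SingleFold.result (n : ℕ) (S : Set (Fin n → ℕ))
    (hS : REPred fun a : Fin n → ℕ => a ∈ S) :
    ∃ (m : ℕ) (P : MvPolynomial (Fin n ⊕ Fin m) ℤ), ∀ a : Fin n → ℕ,
      (a ∈ S ↔ ∃ w : Fin m → ℕ,
        MvPolynomial.eval (Sum.elim (fun i => (a i : ℤ)) (fun j => (w j : ℤ))) P = 0) ∧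
      {w : Fin m → ℕ |
        MvPolynomial.eval (Sum.elim (fun i => (a i : ℤ)) (fun j => (w j : ℤ))) P = 0}.Subsingleton :=
  (Vale.Agent.P345.SF.rePred hS).final
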